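import Vale.Agent.P090.Main

open Vale.Agent.P090

theorem Vale.Agent.Results.P090.Main.result :
    ∃ (M : Type) (_ : MetricSpace M) (o : M),
      (∃ c : ℝ, 0 < c ∧ ∀ x y : M, x ≠ y → c ≤ dist x y) ∧ ¬ HasBAP (FreeSpace o) :=
  Vale.Agent.P090.main
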